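import Vale.Agent.P063.H868.Defs

/-!
Total influence and noise stability of a family of subsets of a finite set.
-/

namespace Vale.Agent.N063

open Vale.Agent.P063.H868

variable {E : Type} [Fintype E] [DecidableEq E]

/-- The total influence `I_p(P)`: the sum over `e` of the probability that exactly one of the two
sets `A ∪ {e}`, `A \ {e}` lies in `P`. -/
noncomputable def infl (P : Set (Finset E)) (p : ℝ) : ℝ :=
  ∑ e : E, prob {A | ¬ (insert e A ∈ P ↔ A.erase e ∈ P)} p

/-- The probability that the `p`-random subset of `E` equals `A`. -/
def weight (p : ℝ) (A : Finset E) : ℝ := p ^ A.card * (1 - p) ^ (Fintype.card E - A.card)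

open Classical in
/-- The probability that the `p`-random set `A` and its noisy copy both lie in `P`; the copy agrees
with `A` outside a `δ`-random set `R` and with an independent `p`-random set `B` on `R`. -/
noncomputable def bothProb (P : Set (Finset E)) (p δ : ℝ) : ℝ :=
  ∑ A : Finset E, ∑ B : Finset E, ∑ R : Finset E,
    if A ∈ P ∧ A \ R ∪ B ∩ R ∈ P then weight p A * weight p B * weight δ R else 0

end Vale.Agent.N063
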