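import Vale.Agent.P063.H868.Final

/-!
The spectral inequality for functions on an arbitrary set of coordinates with supports.
-/

set_option linter.unusedSectionVars false

namespace Vale.Agent.N063

open Finset Vale.Agent.P063

variable {V E : Type} [Fintype V] [DecidableEq V] [Fintype E] [DecidableEq E] (s : E → Finset V)

/-- coordinates whose support meets `X` -/
def EX (X : Finset V) : Finset E := univ.filter (fun e => ¬ Disjoint (s e) X)

/-- coordinates whose support contains `v` -/
def EV (v : V) : Finset E := univ.filter (fun e => v ∈ s e)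

/-- families of at most `d` coordinates all meeting `X` exactly in `v` -/
def TV (d : ℕ) (X : Finset V) (v : V) : Finset (Finset E) :=
  univ.filter (fun T => T.Nonempty ∧ T.card ≤ d ∧ ∀ e ∈ T, s e ∩ X = {v})

/-- the symmetries of `f` that fix everything outside `X` are transitive on `X` -/
def Sym (f : (E → Bool) → ℝ) (X : Finset V) : Prop :=
  ∀ u ∈ X, ∀ v ∈ X, ∃ (σ : Equiv.Perm V) (τ : Equiv.Perm E), σ u = v ∧ (∀ a, a ∉ X → σ a = a) ∧
    (∀ e a, σ a ∈ s (τ e) ↔ a ∈ s e) ∧ (∀ e, Disjoint (s e) X → τ e = e) ∧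
    ∀ x, f (fun e => x (τ e)) = f x

/-- covered vertices -/
def VS (S : Finset E) : Finset V := univ.filter (fun v => ∃ e ∈ S, v ∈ s e)

/-- sets of coordinates in which `v` has small positive degree, not too many covered vertices -/
def Low (L d : ℕ) (v : V) : Finset (Finset E) :=
  univ.filter (fun S => v ∈ VS s S ∧ (S.filter (fun e => v ∈ s e)).card ≤ d
    ∧ 2 * (VS s S).card ≤ L)

variable {s}

omit [Fintype V] in
lemma TV_weight_eq (p : ℝ) (f : (E → Bool) → ℝ) (d : ℕ) (X : Finset V) (hX : Sym s f X)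
    (u v : V) (hu : u ∈ X) (hv : v ∈ X) (x : E → Bool) :
    ∑ T ∈ TV s d X u, fc p (fun z => f (mix (EX s X) z x)) T ^ 2
      = ∑ T ∈ TV s d X v, fc p (fun z => f (mix (EX s X) z x)) T ^ 2 := by
  obtain ⟨σ, τ, hσu, hout, hs, hfix, hinv⟩ := hX u hu v hv
  have hσX : ∀ a, σ a ∈ X ↔ a ∈ X := by
    intro a
    constructor
    · intro h
      by_contra ha
      rw [hout a ha] at h
      exact ha h
    · intro ha
      by_contra h
      have := σ.injective (hout _ h)
      rw [this] at h
      exact h ha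
  have hτX : ∀ e, τ e ∈ EX s X ↔ e ∈ EX s X := by
    intro e
    simp only [EX, Finset.mem_filter, Finset.mem_univ, true_and, not_iff_not]
    rw [Finset.disjoint_left, Finset.disjoint_left]
    constructor
    · intro h a ha haX
      exact h ((hs e a).2 ha) ((hσX a).2 haX)
    · intro h a ha haX
      obtain ⟨b, rfl⟩ := σ.surjective a
      exact h ((hs e b).1 ha) ((hσX b).1 haX)
  have hF : ∀ z : E → Bool, f (mix (EX s X) (fun i => z (τ i)) x) = f (mix (EX s X) z x) := by
    intro z
    rw [← hinv (mix (EX s X) z x)]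
    congr 1
    funext e
    by_cases he : e ∈ EX s X
    · have he' : τ e ∈ EX s X := (hτX e).2 he
      simp only [mix, he, he', if_true]
    · have he' : τ e = e := hfix e (by simpa [EX] using he)
      simp only [mix, he, he', if_false]
  have hfc := fc_relabel p τ (fun z => f (mix (EX s X) z x)) hF
  refine Finset.sum_equiv (Equiv.finsetCongr τ) ?_ ?_
  · intro T
    simp only [TV, Finset.mem_filter, Finset.mem_univ, true_and, Equiv.finsetCongr_apply,
      Finset.map_nonempty, Finset.card_map]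
    have hmem : ∀ e : E, s (τ e) ∩ X = {v} ↔ s e ∩ X = {u} := by
      intro e
      have h2 : ∀ a, σ a ∈ s (τ e) ∩ X ↔ a ∈ s e ∩ X := by
        intro a
        rw [Finset.mem_inter, Finset.mem_inter, hσX, hs]
      constructor
      · intro h
        ext a
        rw [← h2, h, Finset.mem_singleton, Finset.mem_singleton, ← hσu]
        exact σ.injective.eq_iff
      · intro h
        ext a
        obtain ⟨b, rfl⟩ := σ.surjective a
        rw [h2, h, Finset.mem_singleton, Finset.mem_singleton, ← hσu]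
        exact σ.injective.eq_iff.symm
    constructor
    · rintro ⟨h1, h2, h3⟩
      refine ⟨h1, h2, ?_⟩
      intro e he
      rw [Finset.mem_map] at he
      obtain ⟨e', he', rfl⟩ := he
      exact (hmem e').2 (h3 e' he')
    · rintro ⟨h1, h2, h3⟩
      refine ⟨h1, h2, ?_⟩
      intro e he
      exact (hmem e).1 (h3 _ (Finset.mem_map_of_mem _ he))
  · intro T _
    rw [Equiv.finsetCongr_apply, hfc]

omit [Fintype V] in
lemma TV_weight_le {p : ℝ} (h0 : 0 < p) (h1 : p < 1) (f : (E → Bool) → ℝ)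
    (hf : ∀ x, f x = 0 ∨ f x = 1) (d : ℕ) (X : Finset V) (hX : Sym s f X) (v : V) (hv : v ∈ X)
    (x : E → Bool) :
    (X.card : ℝ) * ∑ T ∈ TV s d X v, fc p (fun z => f (mix (EX s X) z x)) T ^ 2 ≤ 1 := by
  set F : (E → Bool) → ℝ := fun z => f (mix (EX s X) z x) with hFdef
  have e1 : (X.card : ℝ) * ∑ T ∈ TV s d X v, fc p F T ^ 2
      = ∑ u ∈ X, ∑ T ∈ TV s d X u, fc p F T ^ 2 := by
    rw [Finset.sum_congr rfl (fun u hu => TV_weight_eq p f d X hX u v hu hv x)]
    rw [Finset.sum_const, nsmul_eq_mul]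
  rw [e1, ← Finset.sum_biUnion]
  · calc _ ≤ ∑ T : Finset E, fc p F T ^ 2 :=
          Finset.sum_le_sum_of_subset_of_nonneg (Finset.subset_univ _) (fun _ _ _ => sq_nonneg _)
      _ = Ex p (fun x => F x ^ 2) := (parseval h0 h1 F).symm
      _ ≤ Ex p (fun _ => 1) := by
          refine Ex_mono h0.le h1.le fun z => ?_
          rcases hf (mix (EX s X) z x) with h | h <;> simp [hFdef, h]
      _ = 1 := Ex_const p 1
  · intro a ha b hb hab
    rw [Function.onFun, Finset.disjoint_left]
    intro T hTa hTb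
    simp only [TV, Finset.mem_filter, Finset.mem_univ, true_and] at hTa hTb
    obtain ⟨e, he⟩ := hTa.1
    have h2 := hTa.2.2 e he
    rw [hTb.2.2 e he] at h2
    exact hab (Finset.singleton_injective h2).symm

omit [Fintype V] in
theorem block {p : ℝ} (h0 : 0 < p) (h1 : p < 1) (f : (E → Bool) → ℝ)
    (hf : ∀ x, f x = 0 ∨ f x = 1) (d : ℕ) (X : Finset V) (hX : Sym s f X) (v : V) (hv : v ∈ X)
    (L : ℕ) (hL : L ≤ X.card) (θ : ℝ) (hθ : 0 ≤ θ)
    (hθ' : 4 * (4 / (p * (1 - p))) ^ d ≤ θ ^ 3 * L) :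
    ∑ S ∈ Finset.univ.filter (fun S : Finset E => S ∩ EX s X ∈ TV s d X v), fc p f S ^ 2
      ≤ θ * ∑ S ∈ Finset.univ.filter (fun S : Finset E => ¬ Disjoint S (EV s v)),
        fc p f S ^ 2 := by
  have hpt : ∀ x : E → Bool,
      ∑ T ∈ TV s d X v, fc p (fun z => f (mix (EX s X) z x)) T ^ 2
        ≤ θ * ∑ T ∈ Finset.univ.filter (fun T : Finset E => ¬ Disjoint T (EV s v)),
          fc p (fun z => f (mix (EX s X) z x)) T ^ 2 := by
    intro x
    have hle := TV_weight_le h0 h1 f hf d X hX v hv x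
    have hkey := key h0 h1 (fun z => f (mix (EX s X) z x)) (fun z => hf _) (EV s v)
      (TV s d X v) d (by
        intro T hT
        simp only [TV, Finset.mem_filter, Finset.mem_univ, true_and] at hT
        exact hT.2.1) (by
        intro T hT
        simp only [TV, Finset.mem_filter, Finset.mem_univ, true_and] at hT
        obtain ⟨e, he⟩ := hT.1
        intro hdis
        rw [Finset.disjoint_left] at hdis
        apply hdis he
        simp only [EV, Finset.mem_filter, Finset.mem_univ, true_and]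
        have h3 := hT.2.2 e he
        have h4 : v ∈ s e ∩ X := by rw [h3]; exact Finset.mem_singleton_self v
        exact (Finset.mem_inter.1 h4).1)
    set w := ∑ T ∈ TV s d X v, fc p (fun z => f (mix (EX s X) z x)) T ^ 2 with hw
    set j := ∑ T ∈ Finset.univ.filter (fun T : Finset E => ¬ Disjoint T (EV s v)),
          fc p (fun z => f (mix (EX s X) z x)) T ^ 2 with hj
    have hw0 : 0 ≤ w := Finset.sum_nonneg fun T _ => sq_nonneg _
    have hj0 : 0 ≤ j := Finset.sum_nonneg fun T _ => sq_nonneg _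
    have hLw : (L : ℝ) * w ≤ 1 := by
      have : (L : ℝ) ≤ X.card := by exact_mod_cast hL
      calc (L : ℝ) * w ≤ X.card * w := mul_le_mul_of_nonneg_right this hw0
        _ ≤ 1 := hle
    exact real_aux hw0 hj0 hθ hLw hkey hθ'
  have hE := Ex_mono h0.le h1.le hpt
  rw [Ex_mul_left, Ex_sum_fc_restrict_sq h0 h1, Ex_sum_fc_restrict_sq h0 h1] at hE
  refine hE.trans (le_of_eq ?_)
  congr 1
  refine Finset.sum_congr ?_ fun _ _ => rfl
  ext S
  simp only [Finset.mem_filter, Finset.mem_univ, true_and, not_iff_not]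
  have hsub : ∀ e ∈ EV s v, e ∈ EX s X := by
    intro e he
    simp only [EV, Finset.mem_filter, Finset.mem_univ, true_and] at he
    simp only [EX, Finset.mem_filter, Finset.mem_univ, true_and]
    intro hdis
    exact (Finset.disjoint_left.1 hdis he) hv
  constructor
  · intro h
    rw [Finset.disjoint_left] at h ⊢
    intro e he hev
    exact h (Finset.mem_inter.2 ⟨he, hsub e hev⟩) hev
  · intro h
    exact Finset.disjoint_of_subset_left Finset.inter_subset_left h

omit [Fintype E] in
lemma mem_VS (S : Finset E) (v : V) : v ∈ VS s S ↔ ∃ e ∈ S, v ∈ s e := by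
  simp only [VS, mem_filter, mem_univ, true_and]

lemma mem_VS_iff (S : Finset E) (v : V) : v ∈ VS s S ↔ ¬ Disjoint S (EV s v) := by
  rw [mem_VS, Finset.not_disjoint_iff]
  simp only [EV, mem_filter, mem_univ, true_and]

omit [Fintype E] in
lemma card_VS_le {r : ℕ} (hr : ∀ e, (s e).card ≤ r) (S : Finset E) :
    (VS s S).card ≤ r * S.card := by
  have h : VS s S ⊆ S.biUnion s := by
    intro v hv
    rw [mem_VS] at hv
    rw [Finset.mem_biUnion]
    exact hv
  calc (VS s S).card ≤ (S.biUnion s).card := Finset.card_le_card h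
    _ ≤ ∑ e ∈ S, (s e).card := Finset.card_biUnion_le
    _ ≤ ∑ _e ∈ S, r := Finset.sum_le_sum fun e _ => hr e
    _ = r * S.card := by rw [Finset.sum_const, smul_eq_mul, mul_comm]

/-- `L` blocks of size at least `L` inside `Y` that meet only in `v`. -/
lemma exists_blocks {L : ℕ} (Y : Finset V) (hL : L * L ≤ Y.card) (v : V) (hv : v ∈ Y) :
    ∃ (β : V → ℕ) (X : ℕ → Finset V), ∀ i < L, v ∈ X i ∧ X i ⊆ Y ∧ L ≤ (X i).card ∧
      ∀ u ∈ X i, u = v ∨ β u = i := by
  refine ⟨fun u => if h : u ∈ Y then (Y.equivFin ⟨u, h⟩).val % L else L,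
    fun i => Y.filter (fun u => u = v ∨
      (if h : u ∈ Y then (Y.equivFin ⟨u, h⟩).val % L else L) = i), fun i hi => ⟨?_, ?_, ?_, ?_⟩⟩
  · exact mem_filter.2 ⟨hv, Or.inl rfl⟩
  · exact filter_subset _ _
  · have hlt : ∀ t : Fin L, i + t.val * L < Y.card := by
      intro t
      have h1 : t.val + 1 ≤ L := t.isLt
      have h2 : (t.val + 1) * L ≤ L * L := Nat.mul_le_mul_right L h1
      have h3 : (t.val + 1) * L = t.val * L + L := by ring
      omega
    have := Finset.card_le_card_of_injOn (s := (Finset.univ : Finset (Fin L)))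
      (t := Y.filter (fun u => u = v ∨
        (if h : u ∈ Y then (Y.equivFin ⟨u, h⟩).val % L else L) = i))
      (fun t => (Y.equivFin.symm ⟨i + t.val * L, hlt t⟩ : Y).1) (by
        intro t _
        have hm := (Y.equivFin.symm ⟨i + t.val * L, hlt t⟩).2
        refine mem_coe.2 (mem_filter.2 ⟨hm, Or.inr ?_⟩)
        rw [dif_pos hm]
        simp only [Subtype.coe_eta, Equiv.apply_symm_apply]
        rw [Nat.add_mul_mod_self_right, Nat.mod_eq_of_lt hi]) (by
        intro t _ t' _ h
        have h0 := Y.equivFin.symm.injective (Subtype.ext h)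
        have h1 : i + t.val * L = i + t'.val * L := congrArg Fin.val h0
        have h2 : t.val * L = t'.val * L := by omega
        exact Fin.ext (Nat.eq_of_mul_eq_mul_right (by omega) h2))
    simpa only [card_univ, Fintype.card_fin] using this
  · intro u hu
    exact (mem_filter.1 hu).2

lemma good_mem {L d : ℕ} {v : V} {S : Finset E} (hS : S ∈ Low s L d v) {X : Finset V}
    (hvX : v ∈ X) (key : ∀ u ∈ VS s S, u ∈ X → u = v) : S ∩ EX s X ∈ TV s d X v := by
  simp only [Low, Finset.mem_filter, Finset.mem_univ, true_and] at hS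
  obtain ⟨hv, hdeg, -⟩ := hS
  have key2 : ∀ e ∈ S ∩ EX s X, v ∈ s e := by
    intro e he
    rw [Finset.mem_inter] at he
    obtain ⟨heS, heX⟩ := he
    simp only [EX, Finset.mem_filter, Finset.mem_univ, true_and] at heX
    rw [Finset.not_disjoint_iff] at heX
    obtain ⟨u, hu, huX⟩ := heX
    have := key u ((mem_VS S u).2 ⟨e, heS, hu⟩) huX
    rwa [this] at hu
  simp only [TV, Finset.mem_filter, Finset.mem_univ, true_and]
  refine ⟨?_, ?_, ?_⟩
  · rw [mem_VS] at hv
    obtain ⟨e, he, hve⟩ := hv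
    refine ⟨e, Finset.mem_inter.2 ⟨he, ?_⟩⟩
    simp only [EX, Finset.mem_filter, Finset.mem_univ, true_and]
    rw [Finset.not_disjoint_iff]
    exact ⟨v, hve, hvX⟩
  · refine le_trans (Finset.card_le_card ?_) hdeg
    intro e he
    rw [Finset.mem_filter]
    exact ⟨(Finset.mem_inter.1 he).1, key2 e he⟩
  · intro e he
    ext u
    rw [Finset.mem_inter, Finset.mem_singleton]
    constructor
    · rintro ⟨hu, huX⟩
      exact key u ((mem_VS S u).2 ⟨e, (Finset.mem_inter.1 he).1, hu⟩) huX
    · rintro rfl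
      exact ⟨key2 e he, hvX⟩

/-- Weight of the sets in which `v` has low degree. -/
theorem low_le {L d : ℕ} (hL1 : 1 ≤ L) {p : ℝ} (h0 : 0 < p) (h1 : p < 1)
    (f : (E → Bool) → ℝ) (hf : ∀ x, f x = 0 ∨ f x = 1) (v : V) (Y : Finset V) (hv : v ∈ Y)
    (hL : L * L ≤ Y.card) (hY : ∀ X ⊆ Y, L ≤ X.card → Sym s f X)
    (θ : ℝ) (hθ : 0 ≤ θ) (hθ' : 4 * (4 / (p * (1 - p))) ^ d ≤ θ ^ 3 * L) :
    ∑ S ∈ Low s L d v, fc p f S ^ 2
      ≤ 2 * θ * ∑ S ∈ Finset.univ.filter (fun S : Finset E => v ∈ VS s S), fc p f S ^ 2 := by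
  obtain ⟨β, X, hX⟩ := exists_blocks Y hL v hv
  have hLpos : (0 : ℝ) < L := by exact_mod_cast hL1
  set J := ∑ S ∈ Finset.univ.filter (fun S : Finset E => v ∈ VS s S), fc p f S ^ 2 with hJ
  have hJ' : ∑ S ∈ Finset.univ.filter (fun S : Finset E => ¬ Disjoint S (EV s v)),
        fc p f S ^ 2 = J := by
    rw [hJ]
    refine Finset.sum_congr ?_ fun _ _ => rfl
    ext S
    simp only [Finset.mem_filter, Finset.mem_univ, true_and, mem_VS_iff]
  have hblock : ∀ i ∈ Finset.range L,
      ∑ S ∈ Finset.univ.filter (fun S : Finset E =>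
        S ∩ EX s (X i) ∈ TV s d (X i) v), fc p f S ^ 2 ≤ θ * J := by
    intro i hi
    rw [← hJ']
    obtain ⟨e1, e2, e3, -⟩ := hX i (mem_range.1 hi)
    exact block h0 h1 f hf d (X i) (hY _ e2 e3) v e1 L e3 θ hθ hθ'
  set good : Finset E → Finset ℕ := fun S => Finset.range L \ (VS s S).image β with hgood
  have hsum : ∑ S ∈ Low s L d v, fc p f S ^ 2 * ((good S).card : ℝ) ≤ L * (θ * J) := by
    have e1 : ∑ S ∈ Low s L d v, fc p f S ^ 2 * ((good S).card : ℝ)
        = ∑ i ∈ Finset.range L, ∑ S ∈ Low s L d v,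
          (if i ∈ good S then fc p f S ^ 2 else 0) := by
      rw [Finset.sum_comm]
      refine Finset.sum_congr rfl fun S _ => ?_
      have hsub : good S ⊆ Finset.range L := Finset.sdiff_subset
      rw [Finset.sum_ite_mem, Finset.inter_eq_right.2 hsub, Finset.sum_const, nsmul_eq_mul,
        mul_comm]
    rw [e1]
    calc _ ≤ ∑ i ∈ Finset.range L, θ * J := by
          refine Finset.sum_le_sum fun i hi => ?_
          refine le_trans ?_ (hblock i hi)
          rw [← Finset.sum_filter]
          refine Finset.sum_le_sum_of_subset_of_nonneg ?_ fun _ _ _ => sq_nonneg _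
          intro S hS
          rw [Finset.mem_filter] at hS
          rw [Finset.mem_filter]
          obtain ⟨e1, -, -, e4⟩ := hX i (mem_range.1 hi)
          refine ⟨Finset.mem_univ _, good_mem hS.1 e1 fun u hu huX => ?_⟩
          rcases e4 u huX with h | h
          · exact h
          · exact absurd (mem_image.2 ⟨u, hu, h⟩) (mem_sdiff.1 hS.2).2
      _ = L * (θ * J) := by rw [Finset.sum_const, Finset.card_range, nsmul_eq_mul]
  have hge : ∑ S ∈ Low s L d v, fc p f S ^ 2 * ((L : ℝ) / 2)
      ≤ ∑ S ∈ Low s L d v, fc p f S ^ 2 * ((good S).card : ℝ) := by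
    refine Finset.sum_le_sum fun S hS => ?_
    refine mul_le_mul_of_nonneg_left ?_ (sq_nonneg _)
    have h2 : L ≤ 2 * (good S).card := by
      simp only [Low, Finset.mem_filter, Finset.mem_univ, true_and] at hS
      have h3 : (Finset.range L).card - ((VS s S).image β).card ≤ (good S).card :=
        Finset.le_card_sdiff _ _
      have h4 : ((VS s S).image β).card ≤ (VS s S).card := Finset.card_image_le
      rw [Finset.card_range] at h3
      omega
    have : (L : ℝ) ≤ 2 * ((good S).card : ℝ) := by exact_mod_cast h2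
    linarith only [this]
  rw [← Finset.sum_mul] at hge
  have h4 : (∑ S ∈ Low s L d v, fc p f S ^ 2) * (L : ℝ) ≤ (2 * θ * J) * L := by
    linarith only [hsum, hge]
  exact le_of_mul_le_mul_right h4 hLpos

/-- A nonempty set of coordinates whose covered vertices all have degree `> d` is large. -/
theorem card_ge {r m : ℕ} (hr : 2 ≤ r) (hs : ∀ e, (s e).Nonempty ∧ (s e).card ≤ r)
    (hm : ∀ T : Finset V, (univ.filter (fun e => s e = T)).card ≤ m) (d : ℕ) (S : Finset E)
    (hS : S.Nonempty) (hdeg : ∀ v ∈ VS s S, d < (S.filter (fun e => v ∈ s e)).card) :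
    ((d : ℝ) + 1) ^ ((r : ℝ) / ((r : ℝ) - 1)) / (2 * r * m) ≤ S.card := by
  have hr2 : (2 : ℝ) ≤ r := by exact_mod_cast hr
  have hr1 : (0 : ℝ) < (r : ℝ) - 1 := by linarith
  set k := (VS s S).card with hk
  obtain ⟨e0, he0⟩ := hS
  obtain ⟨v0, hv0⟩ := (hs e0).1
  have hv0S : v0 ∈ VS s S := (mem_VS S v0).2 ⟨e0, he0, hv0⟩
  have hk1 : 1 ≤ k := Finset.card_pos.2 ⟨v0, hv0S⟩
  have hm1 : 1 ≤ m := le_trans (Finset.card_pos.2 ⟨e0, by simp⟩) (hm (s e0))
  have hsmall : ∀ j, ((VS s S).powerset.filter (fun T => T.card ≤ j)).card ≤ (k + 1) ^ j := by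
    intro j
    induction j with
    | zero =>
      rw [pow_zero, Finset.card_le_one]
      intro a ha b hb
      simp only [mem_filter, Nat.le_zero, Finset.card_eq_zero] at ha hb
      rw [ha.2, hb.2]
    | succ j ih =>
      have h1 : (VS s S).powerset.filter (fun T => T.card ≤ j + 1) ⊆
          (VS s S).powerset.filter (fun T => T.card ≤ j) ∪ (VS s S).powersetCard (j + 1) := by
        intro T hT
        simp only [mem_filter, mem_union, mem_powerset, mem_powersetCard] at hT ⊢
        by_cases h : T.card ≤ j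
        · exact Or.inl ⟨hT.1, h⟩
        · exact Or.inr ⟨hT.1, by omega⟩
      have h2 : ((VS s S).powersetCard (j + 1)).card ≤ k * (k + 1) ^ j := by
        rw [Finset.card_powersetCard]
        calc k.choose (j + 1) ≤ k ^ (j + 1) := Nat.choose_le_pow _ _
          _ = k * k ^ j := by ring
          _ ≤ _ := Nat.mul_le_mul_left _ (Nat.pow_le_pow_left (by omega) _)
      calc _ ≤ _ := Finset.card_le_card h1
        _ ≤ _ := Finset.card_union_le _ _
        _ ≤ (k + 1) ^ j + k * (k + 1) ^ j := Nat.add_le_add ih h2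
        _ = (k + 1) ^ (j + 1) := by ring
  have hD : d + 1 ≤ (2 * m * k) ^ (r - 1) := by
    have h1 : (S.filter (fun e => v0 ∈ s e)).card ≤
        m * ((VS s S).powerset.filter (fun T => T.card ≤ r - 1)).card := by
      refine Finset.card_le_mul_card_image_of_maps_to (f := fun e => (s e).erase v0) ?_ m ?_
      · intro e he
        rw [mem_filter] at he
        refine mem_filter.2 ⟨mem_powerset.2 fun u hu =>
          (mem_VS S u).2 ⟨e, he.1, Finset.mem_of_mem_erase hu⟩, ?_⟩
        rw [Finset.card_erase_of_mem he.2]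
        have := (hs e).2
        omega
      · intro T _
        refine le_trans (Finset.card_le_card ?_) (hm (insert v0 T))
        intro e he
        simp only [mem_filter, mem_univ, true_and] at he ⊢
        rw [← he.2, Finset.insert_erase he.1.2]
    calc d + 1 ≤ m * (k + 1) ^ (r - 1) :=
          (hdeg v0 hv0S).trans_le (h1.trans (Nat.mul_le_mul_left _ (hsmall _)))
      _ ≤ m ^ (r - 1) * (2 * k) ^ (r - 1) :=
          Nat.mul_le_mul (Nat.le_self_pow (by omega) m) (Nat.pow_le_pow_left (by omega) _)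
      _ = (2 * m * k) ^ (r - 1) := by rw [← mul_pow]; congr 1; ring
  have hkD : k * (d + 1) ≤ r * S.card := by
    calc k * (d + 1) = ∑ _v ∈ VS s S, (d + 1) := by rw [Finset.sum_const, smul_eq_mul]
      _ ≤ ∑ v ∈ VS s S, (S.filter (fun e => v ∈ s e)).card :=
          Finset.sum_le_sum fun v hv => hdeg v hv
      _ = ∑ e ∈ S, ((VS s S).filter (fun v => v ∈ s e)).card := by
          simp only [Finset.card_filter]
          exact Finset.sum_comm
      _ ≤ ∑ _e ∈ S, r := Finset.sum_le_sum fun e _ =>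
          (Finset.card_le_card fun v hv => (mem_filter.1 hv).2).trans (hs e).2
      _ = r * S.card := by rw [Finset.sum_const, smul_eq_mul, mul_comm]
  have hD' : ((d : ℝ) + 1) ≤ (2 * m * k : ℝ) ^ (r - 1) := by exact_mod_cast hD
  have hkD' : (k : ℝ) * ((d : ℝ) + 1) ≤ r * S.card := by exact_mod_cast hkD
  have hdpos : (0 : ℝ) < (d : ℝ) + 1 := by positivity
  have hm0 : (0 : ℝ) < m := by exact_mod_cast hm1
  have hcast : ((r - 1 : ℕ) : ℝ) = (r : ℝ) - 1 := by
    rw [Nat.cast_sub (by omega)]; simp only [Nat.cast_one]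
  have hroot : ((d : ℝ) + 1) ^ (1 / ((r : ℝ) - 1)) ≤ 2 * m * k := by
    refine (Real.rpow_le_rpow hdpos.le hD' (by positivity)).trans (le_of_eq ?_)
    rw [← hcast, one_div]
    exact Real.pow_rpow_inv_natCast (by positivity) (by omega)
  rw [div_le_iff₀ (by positivity)]
  have hexp : (r : ℝ) / ((r : ℝ) - 1) = 1 / ((r : ℝ) - 1) + 1 := by
    field_simp
    ring
  rw [hexp, Real.rpow_add hdpos, Real.rpow_one]
  calc ((d : ℝ) + 1) ^ (1 / ((r : ℝ) - 1)) * ((d : ℝ) + 1)
      ≤ 2 * m * k * ((d : ℝ) + 1) := mul_le_mul_of_nonneg_right hroot hdpos.le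
    _ = 2 * m * (k * ((d : ℝ) + 1)) := by ring
    _ ≤ 2 * m * (r * S.card) := mul_le_mul_of_nonneg_left hkD' (by positivity)
    _ = S.card * (2 * r * m) := by ring

/-- The Fourier weight on the low levels is at most `2 r θ` times the total influence. -/
theorem lowLevels {r m L d : ℕ} (hr : 2 ≤ r) (hs : ∀ e, (s e).Nonempty ∧ (s e).card ≤ r)
    (hm : ∀ T : Finset V, (univ.filter (fun e => s e = T)).card ≤ m) (hL1 : 1 ≤ L)
    {p : ℝ} (h0 : 0 < p) (h1 : p < 1) (f : (E → Bool) → ℝ) (hf : ∀ x, f x = 0 ∨ f x = 1)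
    (hY : ∀ v, ∃ Y : Finset V, v ∈ Y ∧ L * L ≤ Y.card ∧ ∀ X ⊆ Y, L ≤ X.card → Sym s f X)
    (θ : ℝ) (hθ : 0 ≤ θ) (hθ' : 4 * (4 / (p * (1 - p))) ^ d ≤ θ ^ 3 * L) :
    ∑ S ∈ univ.filter (fun S : Finset E => S.Nonempty ∧ 2 * (r * S.card) ≤ L ∧
        (S.card : ℝ) < ((d : ℝ) + 1) ^ ((r : ℝ) / ((r : ℝ) - 1)) / (2 * r * m)), fc p f S ^ 2
      ≤ 2 * r * θ * ∑ S : Finset E, (S.card : ℝ) * fc p f S ^ 2 := by
  have hnn : ∀ (S : Finset E) (v : V), (0 : ℝ) ≤ if S ∈ Low s L d v then fc p f S ^ 2 else 0 := by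
    intro S v
    split_ifs
    · exact sq_nonneg _
    · exact le_refl _
  calc _ ≤ ∑ S ∈ univ.filter (fun S : Finset E => S.Nonempty ∧ 2 * (r * S.card) ≤ L ∧
        (S.card : ℝ) < ((d : ℝ) + 1) ^ ((r : ℝ) / ((r : ℝ) - 1)) / (2 * r * m)),
        ∑ v : V, (if S ∈ Low s L d v then fc p f S ^ 2 else 0) := by
        refine Finset.sum_le_sum fun S hS => ?_
        obtain ⟨-, hS1, hS2, hS3⟩ := mem_filter.1 hS
        have : ∃ v, S ∈ Low s L d v := by
          by_contra hc
          refine absurd (card_ge hr hs hm d S hS1 fun v hv => ?_) (not_le.2 hS3)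
          by_contra hcon
          refine hc ⟨v, mem_filter.2 ⟨mem_univ _, hv, not_lt.1 hcon, ?_⟩⟩
          have := card_VS_le (fun e => (hs e).2) S
          omega
        obtain ⟨v, hv⟩ := this
        have := Finset.single_le_sum (s := (Finset.univ : Finset V))
          (f := fun v => if S ∈ Low s L d v then fc p f S ^ 2 else 0)
          (fun v _ => hnn S v) (Finset.mem_univ v)
        simpa only [hv, ↓reduceIte] using this
    _ ≤ ∑ S : Finset E, ∑ v : V, (if S ∈ Low s L d v then fc p f S ^ 2 else 0) :=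
        Finset.sum_le_sum_of_subset_of_nonneg (Finset.subset_univ _) fun S _ _ =>
          Finset.sum_nonneg fun v _ => hnn S v
    _ = ∑ v : V, ∑ S ∈ Low s L d v, fc p f S ^ 2 := by
        rw [Finset.sum_comm]
        refine Finset.sum_congr rfl fun v _ => ?_
        rw [Finset.sum_ite_mem, Finset.univ_inter]
    _ ≤ ∑ v : V, 2 * θ * ∑ S ∈ Finset.univ.filter (fun S : Finset E => v ∈ VS s S),
          fc p f S ^ 2 := Finset.sum_le_sum fun v _ => by
        obtain ⟨Y, e1, e2, e3⟩ := hY v
        exact low_le hL1 h0 h1 f hf v Y e1 e2 e3 θ hθ hθ'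
    _ = 2 * θ * ∑ S : Finset E, ((VS s S).card : ℝ) * fc p f S ^ 2 := by
        rw [← Finset.mul_sum]
        congr 1
        simp only [Finset.sum_filter]
        rw [Finset.sum_comm]
        refine Finset.sum_congr rfl fun S _ => ?_
        rw [Finset.sum_ite_mem, Finset.univ_inter, Finset.sum_const, nsmul_eq_mul]
    _ ≤ 2 * θ * ∑ S : Finset E, ((r : ℝ) * S.card) * fc p f S ^ 2 := by
        refine mul_le_mul_of_nonneg_left ?_ (by positivity)
        refine Finset.sum_le_sum fun S _ => ?_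
        refine mul_le_mul_of_nonneg_right ?_ (sq_nonneg _)
        exact_mod_cast card_VS_le (fun e => (hs e).2) S
    _ = _ := by
        simp only [mul_assoc]
        rw [← Finset.mul_sum]
        ring

end Vale.Agent.N063
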