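import Vale.Agent.N063.Defs
import Vale.Agent.N063.Gen
import Mathlib.GroupTheory.Perm.Cycle.Type

/-!
Influence, width and noise sensitivity of families with many local symmetries.
-/

set_option linter.unusedSectionVars false

namespace Vale.Agent.N063

open Finset Vale.Agent.P063 Vale.Agent.P063.H868

section fourier

variable {E : Type} [Fintype E] [DecidableEq E]

lemma sum_weight (p : ℝ) (g : Finset E → ℝ) :
    ∑ A : Finset E, weight p A * g A = Ex p (fun x => g (univ.filter (fun e => x e = true))) := by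
  unfold Ex
  symm
  refine Fintype.sum_equiv (Equiv.ofBijective
    (fun x : E → Bool => Finset.univ.filter (fun e => x e = true)) ?_) _ _ ?_
  · constructor
    · intro x y h
      funext e
      have h1 := congrArg (fun s : Finset E => e ∈ s) h
      simp only [Finset.mem_filter, Finset.mem_univ, true_and, eq_iff_iff] at h1
      rcases hx : x e with _ | _ <;> rcases hy : y e with _ | _ <;> simp_all
    · intro A
      refine ⟨fun e => decide (e ∈ A), ?_⟩
      ext e
      simp
  · intro x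
    rw [W_eq_pow]
    rfl

lemma spec_infl {p : ℝ} (h0 : 0 < p) (h1 : p < 1) (P : Set (Finset E)) :
    ∑ S : Finset E, (S.card : ℝ) * fc p (indS P) S ^ 2 = p * (1 - p) * infl P p := by
  rw [H291.sum_card_sq h0 h1]
  congr 1
  refine Finset.sum_congr rfl fun e _ => ?_
  rw [prob_eq]
  congr 1
  funext x
  have e1 : univ.filter (fun a => Function.update x e true a = true)
      = insert e (univ.filter (fun a => x a = true)) := by
    ext a
    by_cases h : a = e <;> simp [h]
  have e2 : univ.filter (fun a => Function.update x e false a = true)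
      = (univ.filter (fun a => x a = true)).erase e := by
    ext a
    by_cases h : a = e <;> simp [h]
  unfold indS
  rw [e1, e2]
  by_cases ha : insert e (univ.filter (fun a => x a = true)) ∈ P <;>
    by_cases hb : (univ.filter (fun a => x a = true)).erase e ∈ P <;> simp [ha, hb]

lemma infl_nonneg {p : ℝ} (h0 : 0 < p) (h1 : p < 1) (P : Set (Finset E)) : 0 ≤ infl P p := by
  have h2 : 0 ≤ p * (1 - p) * infl P p := by
    rw [← spec_infl h0 h1]
    exact Finset.sum_nonneg fun S _ => by positivity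
  exact nonneg_of_mul_nonneg_right h2 (mul_pos h0 (by linarith))

lemma sum_sq {p : ℝ} (h0 : 0 < p) (h1 : p < 1) (P : Set (Finset E)) :
    ∑ S : Finset E, fc p (indS P) S ^ 2 = prob P p := by
  rw [← parseval h0 h1, prob_eq]
  congr 1
  funext x
  rcases indS_bool P x with h | h <;> simp [h]

lemma prob_le_one {p : ℝ} (h0 : 0 < p) (h1 : p < 1) (P : Set (Finset E)) : prob P p ≤ 1 := by
  rw [prob_eq, ← Ex_const (ι := E) p 1]
  refine Ex_mono h0.le h1.le fun x => ?_
  rcases indS_bool P x with h | h <;> simp [h]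

lemma split_empty (g : Finset E → ℝ) :
    ∑ S : Finset E, g S = g ∅ + ∑ S ∈ univ.filter (fun S : Finset E => S.Nonempty), g S := by
  rw [← Finset.add_sum_erase _ _ (mem_univ ∅)]
  congr 1
  refine Finset.sum_congr ?_ fun _ _ => rfl
  ext S
  simp [Finset.nonempty_iff_ne_empty]

lemma mul_avg {p : ℝ} (h0 : 0 < p) (h1 : p < 1) (R : Finset E) (f : (E → Bool) → ℝ) :
    Ex p (fun x => f x * avg p R f x)
      = ∑ S : Finset E, if Disjoint S R then fc p f S ^ 2 else 0 := by
  have e1 : (fun x => f x * avg p R f x)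
      = fun x => ∑ S : Finset E, fc p f S * (avg p R f x * chi p S x) := by
    funext x
    conv_lhs => rw [inversion h0 h1 f x]
    rw [Finset.sum_mul]
    exact Finset.sum_congr rfl fun S _ => by ring
  rw [e1, Ex_sum]
  refine Finset.sum_congr rfl fun S _ => ?_
  rw [Ex_mul_left]
  have := fc_avg h0 h1 R f S
  unfold fc at this
  rw [this]
  unfold fc
  split_ifs <;> ring

lemma weight_disjoint (δ : ℝ) (S : Finset E) :
    ∑ R : Finset E, weight δ R * (if Disjoint S R then 1 else 0) = (1 - δ) ^ S.card := by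
  rw [sum_weight δ (fun R => if Disjoint S R then 1 else 0)]
  have e1 : (fun x : E → Bool =>
      if Disjoint S (univ.filter (fun e => x e = true)) then (1 : ℝ) else 0)
      = fun x => ∏ e, (if e ∈ S ∧ x e = true then 0 else 1) := by
    funext x
    by_cases h : Disjoint S (univ.filter (fun e => x e = true))
    · rw [if_pos h]
      symm
      refine Finset.prod_eq_one fun e _ => if_neg fun he => ?_
      exact Finset.disjoint_left.1 h he.1 (by simp [he.2])
    · rw [if_neg h]
      obtain ⟨e, he1, he2⟩ := Finset.not_disjoint_iff.1 h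
      symm
      exact Finset.prod_eq_zero (mem_univ e) (if_pos ⟨he1, by simpa using he2⟩)
  rw [e1, Ex_prod δ (fun e b => if e ∈ S ∧ b = true then 0 else 1)]
  have e2 : ∀ e : E, δ * (if e ∈ S ∧ true = true then (0 : ℝ) else 1) +
      (1 - δ) * (if e ∈ S ∧ false = true then 0 else 1) = if e ∈ S then 1 - δ else 1 := by
    intro e
    by_cases h : e ∈ S <;> simp [h]
  rw [Finset.prod_congr rfl fun e _ => e2 e]
  rw [Finset.prod_ite_mem, Finset.univ_inter, Finset.prod_const]

lemma both_eq {p : ℝ} (h0 : 0 < p) (h1 : p < 1) (δ : ℝ) (P : Set (Finset E)) :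
    bothProb P p δ = ∑ S : Finset E, (1 - δ) ^ S.card * fc p (indS P) S ^ 2 := by
  classical
  have e1 : bothProb P p δ = ∑ R : Finset E, weight δ R * ∑ A : Finset E, weight p A *
      ∑ B : Finset E, weight p B * (if A ∈ P ∧ A \ R ∪ B ∩ R ∈ P then 1 else 0) := by
    unfold bothProb
    simp only [Finset.mul_sum]
    rw [Finset.sum_comm (s := univ) (t := univ)
      (f := fun R A => ∑ B : Finset E, weight δ R * (weight p A * (weight p B *
        (if A ∈ P ∧ A \ R ∪ B ∩ R ∈ P then (1 : ℝ) else 0))))]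
    refine Finset.sum_congr rfl fun A _ => ?_
    rw [Finset.sum_comm]
    refine Finset.sum_congr rfl fun R _ => Finset.sum_congr rfl fun B _ => ?_
    split_ifs <;> ring
  have e2 : ∀ R : Finset E, ∑ A : Finset E, weight p A *
      ∑ B : Finset E, weight p B * (if A ∈ P ∧ A \ R ∪ B ∩ R ∈ P then 1 else 0)
      = Ex p (fun x => indS P x * avg p R (indS P) x) := by
    intro R
    rw [sum_weight p (fun A => ∑ B : Finset E, weight p B *
      (if A ∈ P ∧ A \ R ∪ B ∩ R ∈ P then 1 else 0))]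
    congr 1
    funext x
    rw [sum_weight p (fun B => if univ.filter (fun e => x e = true) ∈ P ∧
      univ.filter (fun e => x e = true) \ R ∪ B ∩ R ∈ P then 1 else 0)]
    unfold avg
    rw [← Ex_mul_left]
    congr 1
    funext z
    have e3 : univ.filter (fun e => mix R z x e = true) =
        univ.filter (fun e => x e = true) \ R ∪ univ.filter (fun e => z e = true) ∩ R := by
      ext e
      by_cases h : e ∈ R <;> simp [mix, h]
    unfold indS
    rw [e3]
    by_cases ha : univ.filter (fun e => x e = true) ∈ P <;>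
      by_cases hb : univ.filter (fun e => x e = true) \ R ∪
        univ.filter (fun e => z e = true) ∩ R ∈ P <;> simp [ha, hb]
  rw [e1, Finset.sum_congr rfl fun R _ => by rw [e2 R, mul_avg h0 h1, Finset.mul_sum]]
  rw [Finset.sum_comm]
  refine Finset.sum_congr rfl fun S _ => ?_
  rw [← weight_disjoint δ S, Finset.sum_mul]
  refine Finset.sum_congr rfl fun R _ => ?_
  split_ifs <;> ring

end fourier

section main

variable {V E : Type} [Fintype V] [DecidableEq V] [Fintype E] [DecidableEq E] {s : E → Finset V}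

/-- the choice of the parameters -/
theorem lowWeight {r m k : ℕ} (hr : 2 ≤ r) (hm1 : 1 ≤ m) (hk : 9 ≤ k)
    (hs : ∀ e, (s e).Nonempty ∧ (s e).card ≤ r)
    (hm : ∀ T : Finset V, (univ.filter (fun e => s e = T)).card ≤ m)
    {p : ℝ} (h0 : 0 < p) (h1 : p < 1) (f : (E → Bool) → ℝ) (hf : ∀ x, f x = 0 ∨ f x = 1)
    (hY : ∀ v, ∃ Y : Finset V, v ∈ Y ∧ k ≤ Y.card ∧ ∀ X ⊆ Y, 3 ≤ X.card → Sym s f X) :
    ∑ S ∈ univ.filter (fun S : Finset E => S.Nonempty ∧ (S.card : ℝ) <
        (Real.log k / Real.log (4 / (p * (1 - p)))) ^ ((r : ℝ) / ((r : ℝ) - 1)) / (128 * r * m)),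
        fc p f S ^ 2
      ≤ 4 * r * (k : ℝ) ^ (-(1 / 8 : ℝ)) * ∑ S : Finset E, (S.card : ℝ) * fc p f S ^ 2 := by
  have hr2 : (2 : ℝ) ≤ r := by exact_mod_cast hr
  have hm1' : (1 : ℝ) ≤ m := by exact_mod_cast hm1
  have hk9 : (9 : ℝ) ≤ k := by exact_mod_cast hk
  have hk0 : (0 : ℝ) < k := by linarith
  set α : ℝ := (r : ℝ) / ((r : ℝ) - 1) with hα
  have hα1 : 1 ≤ α := by rw [hα, le_div_iff₀ (by linarith)]; linarith
  have hα2 : α ≤ 2 := by rw [hα, div_le_iff₀ (by linarith)]; linarith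
  have hs0 : 0 < p * (1 - p) := mul_pos h0 (by linarith)
  set K := 4 / (p * (1 - p)) with hK
  have hK16 : 16 ≤ K := by
    rw [hK, le_div_iff₀ hs0]; nlinarith [sq_nonneg (p - 1 / 2)]
  have hlogK : 1 ≤ Real.log K := by
    rw [Real.le_log_iff_exp_le (by linarith)]
    have := Real.exp_one_lt_d9
    linarith
  have hlogk : 0 < Real.log k := Real.log_pos (by linarith)
  set y := (k : ℝ) ^ (1 / 8 : ℝ) with hy
  have hy1 : 1 ≤ y := Real.one_le_rpow (by linarith) (by norm_num)
  have hy0 : 0 < y := by linarith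
  have hly : Real.log y = Real.log k / 8 := by rw [hy, Real.log_rpow hk0]; ring
  have hy8 : y ^ 8 = k := by
    rw [hy, ← Real.rpow_natCast, ← Real.rpow_mul hk0.le]; norm_num
  set L := Nat.sqrt k with hL
  have hL3 : 3 ≤ L := Nat.le_sqrt.2 (by omega)
  have hL3' : (3 : ℝ) ≤ L := by exact_mod_cast hL3
  have hyL : y ^ 4 ≤ 2 * L := by
    have h2 : (k : ℝ) < (L + 1) * (L + 1) := by exact_mod_cast Nat.lt_succ_sqrt k
    have h3 : (y ^ 4) ^ 2 ≤ (2 * L) ^ 2 := by
      rw [← pow_mul, hy8]; nlinarith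
    exact le_of_pow_le_pow_left₀ (by norm_num) (by positivity) h3
  set d := ⌊Real.log y / Real.log K⌋₊ with hd
  have hd1 : K ^ d ≤ y := by
    have h2 : (d : ℝ) ≤ Real.log y / Real.log K := Nat.floor_le (by rw [hly]; positivity)
    rw [le_div_iff₀ (by linarith)] at h2
    rw [← Real.log_le_log_iff (by positivity) hy0, Real.log_pow]
    exact h2
  have hd2 : Real.log k / Real.log K / 8 ≤ (d : ℝ) + 1 := by
    have h2 := Nat.lt_floor_add_one (Real.log y / Real.log K)
    rw [← hd, hly] at h2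
    calc Real.log k / Real.log K / 8 = Real.log k / 8 / Real.log K := by ring
      _ ≤ _ := h2.le
  set u := Real.log k / Real.log K with hu
  have hu0 : 0 < u := by positivity
  have hmain := lowLevels (s := s) (L := L) (d := d) hr hs hm (by omega) h0 h1 f hf (fun v => by
    obtain ⟨Y, e1, e2, e3⟩ := hY v
    exact ⟨Y, e1, (Nat.sqrt_le k).trans e2, fun X hX hc => e3 X hX (hL3.trans hc)⟩)
    (2 / y) (by positivity) (by
      rw [← hK, div_pow 2 y, div_mul_eq_mul_div, le_div_iff₀ (by positivity)]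
      calc 4 * K ^ d * y ^ 3 ≤ 4 * y * y ^ 3 := by gcongr
        _ = 4 * y ^ 4 := by ring
        _ ≤ 2 ^ 3 * L := by linarith)
  have hθ : 2 * (r : ℝ) * (2 / y) = 4 * r * (k : ℝ) ^ (-(1 / 8 : ℝ)) := by
    rw [Real.rpow_neg hk0.le, ← hy]; ring
  rw [hθ] at hmain
  refine le_trans (Finset.sum_le_sum_of_subset_of_nonneg ?_ fun _ _ _ => sq_nonneg _) hmain
  intro S hS
  obtain ⟨-, hS1, hS2⟩ := mem_filter.1 hS
  rw [lt_div_iff₀ (by positivity)] at hS2
  refine mem_filter.2 ⟨mem_univ _, hS1, ?_, ?_⟩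
  · have h2 : u ^ α ≤ 1 + u ^ 2 := by
      rcases le_total u 1 with h | h
      · have := Real.rpow_le_one hu0.le h (by linarith : 0 ≤ α)
        nlinarith [sq_nonneg u]
      · have := Real.rpow_le_rpow_of_exponent_le h hα2
        rw [Real.rpow_two] at this
        linarith
    have h3 : u ≤ Real.log k := div_le_self hlogk.le hlogK
    have h4 : Real.log k ≤ 4 * y ^ 2 := by
      have := Real.log_le_sub_one_of_pos (x := y ^ 2) (by positivity)
      rw [Real.log_pow, hly] at this
      push_cast at this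
      linarith
    have h5 : u ^ 2 ≤ (4 * y ^ 2) ^ 2 := pow_le_pow_left₀ hu0.le (h3.trans h4) 2
    have h6 : (S.card : ℝ) * (128 * r * 1) ≤ S.card * (128 * r * m) := by gcongr
    have h7 : ((2 * (r * S.card) : ℕ) : ℝ) ≤ L := by
      push_cast
      nlinarith
    exact_mod_cast h7
  · rw [lt_div_iff₀ (by positivity)]
    have h2 : (u / 8) ^ α ≤ ((d : ℝ) + 1) ^ α := Real.rpow_le_rpow (by positivity) hd2 (by linarith)
    rw [Real.div_rpow hu0.le (by norm_num), div_le_iff₀ (by positivity)] at h2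
    have h3 : (8 : ℝ) ^ α ≤ 64 := by
      have := Real.rpow_le_rpow_of_exponent_le (x := 8) (by norm_num) hα2
      rw [Real.rpow_two] at this
      linarith
    have h4 : ((d : ℝ) + 1) ^ α * 8 ^ α ≤ ((d : ℝ) + 1) ^ α * 64 :=
      mul_le_mul_of_nonneg_left h3 (by positivity)
    linarith

theorem abstract {r m k : ℕ} (hr : 2 ≤ r) (hm1 : 1 ≤ m) (hk : 9 ≤ k)
    (hs : ∀ e, (s e).Nonempty ∧ (s e).card ≤ r)
    (hm : ∀ T : Finset V, (univ.filter (fun e => s e = T)).card ≤ m) (P : Set (Finset E))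
    (hY : ∀ v, ∃ Y : Finset V, v ∈ Y ∧ k ≤ Y.card ∧ ∀ X ⊆ Y, 3 ≤ X.card → Sym s (indS P) X)
    {p : ℝ} (h0 : 0 < p) (h1 : p < 1) :
    Real.log k ^ ((r : ℝ) / ((r : ℝ) - 1)) * (prob P p * (1 - prob P p))
      ≤ 2400 * r * m * infl P p ∧
    ∀ δ : ℝ, 0 ≤ δ → δ ≤ 1 → bothProb P p δ - prob P p ^ 2 ≤
      Real.exp (-(δ * ((Real.log k / Real.log (4 / (p * (1 - p)))) ^ ((r : ℝ) / ((r : ℝ) - 1))
        / (128 * r * m)))) + r * infl P p * (k : ℝ) ^ (-(1 / 8 : ℝ)) := by
  have hlow := lowWeight hr hm1 hk hs hm h0 h1 (indS P) (indS_bool P) hY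
  have hI := spec_infl h0 h1 P
  have hI0 := infl_nonneg h0 h1 P
  have hr2 : (2 : ℝ) ≤ r := by exact_mod_cast hr
  have hm1' : (1 : ℝ) ≤ m := by exact_mod_cast hm1
  have hk9 : (9 : ℝ) ≤ k := by exact_mod_cast hk
  have hk0 : (0 : ℝ) < k := by linarith
  set α : ℝ := (r : ℝ) / ((r : ℝ) - 1) with hα
  have hα2 : α ≤ 2 := by rw [hα, div_le_iff₀ (by linarith)]; linarith
  have hs0 : 0 < p * (1 - p) := mul_pos h0 (by linarith)
  have hs4 : p * (1 - p) ≤ 1 / 4 := by nlinarith [sq_nonneg (p - 1 / 2)]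
  set K := 4 / (p * (1 - p)) with hK
  have hK16 : 16 ≤ K := by rw [hK, le_div_iff₀ hs0]; linarith
  have hlogK : 1 ≤ Real.log K := by
    rw [Real.le_log_iff_exp_le (by linarith)]
    have := Real.exp_one_lt_d9
    linarith
  have hlogk : 1 ≤ Real.log k := by
    rw [Real.le_log_iff_exp_le hk0]
    have := Real.exp_one_lt_d9
    linarith
  set M := (Real.log k / Real.log K) ^ α / (128 * r * m) with hM
  have hM0 : 0 < M := by positivity
  set z := (k : ℝ) ^ (-(1 / 8 : ℝ)) with hz
  have hz0 : 0 < z := Real.rpow_pos_of_pos hk0 _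
  rw [hI] at hlow
  -- splitting a weighted sum at level `M`
  have hsplit : ∀ (w : Finset E → ℝ) (g : Finset E → ℝ), (∀ S, w S ≤ 1) → (∀ S, 0 ≤ g S) →
      (∀ S : Finset E, M ≤ S.card → w S ≤ g S) →
      ∑ S ∈ univ.filter (fun S : Finset E => S.Nonempty), w S * fc p (indS P) S ^ 2
        ≤ 4 * r * z * (p * (1 - p) * infl P p) + ∑ S, g S * fc p (indS P) S ^ 2 := by
    intro w g hw hg hwg
    rw [← Finset.sum_filter_add_sum_filter_not _ (fun S : Finset E => (S.card : ℝ) < M)]
    refine add_le_add ?_ ?_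
    · rw [Finset.filter_filter]
      refine le_trans (Finset.sum_le_sum fun S _ => ?_) hlow
      exact mul_le_of_le_one_left (sq_nonneg _) (hw S)
    · refine le_trans (Finset.sum_le_sum fun S hS => mul_le_mul_of_nonneg_right
        (hwg S (not_lt.1 (mem_filter.1 hS).2)) (sq_nonneg _)) ?_
      exact Finset.sum_le_sum_of_subset_of_nonneg (Finset.subset_univ _) fun S _ _ =>
        mul_nonneg (hg S) (sq_nonneg _)
  have hemp : fc p (indS P) ∅ = prob P p := by rw [fc_empty, prob_eq]
  refine ⟨?_, fun δ hδ0 hδ1 => ?_⟩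
  · have h2 := hsplit (fun _ => 1) (fun S => S.card / M) (fun _ => le_rfl)
      (fun S => by positivity) (fun S hS => (one_le_div hM0).2 hS)
    have h3 : ∑ S : Finset E, (S.card : ℝ) / M * fc p (indS P) S ^ 2
        = p * (1 - p) * infl P p / M := by
      rw [← hI, Finset.sum_div]
      exact Finset.sum_congr rfl fun S _ => by ring
    have h4 := split_empty (fun S => fc p (indS P) S ^ 2)
    rw [sum_sq h0 h1, hemp] at h4
    simp only [one_mul] at h2
    rw [h3] at h2
    have h5 : prob P p * (1 - prob P p) ≤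
        4 * r * z * (p * (1 - p) * infl P p) + p * (1 - p) * infl P p / M := by linarith
    have hΛ : 0 < Real.log k ^ α := by positivity
    have h6 : Real.log k ^ α * z ≤ 256 := by
      have e1 := Real.rpow_le_rpow_of_exponent_le hlogk hα2
      rw [Real.rpow_two] at e1
      have e2 : Real.log k ≤ 16 * (k : ℝ) ^ (1 / 16 : ℝ) := by
        have := Real.log_le_sub_one_of_pos (Real.rpow_pos_of_pos hk0 (1 / 16 : ℝ))
        rw [Real.log_rpow hk0] at this
        linarith
      have e3 : ((k : ℝ) ^ (1 / 16 : ℝ)) ^ 2 * z = 1 := by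
        rw [hz, ← Real.rpow_natCast, ← Real.rpow_mul hk0.le, ← Real.rpow_add hk0]; norm_num
      calc Real.log k ^ α * z ≤ (16 * (k : ℝ) ^ (1 / 16 : ℝ)) ^ 2 * z :=
            mul_le_mul_of_nonneg_right (e1.trans (pow_le_pow_left₀ (by linarith) e2 2)) hz0.le
        _ = 256 * (((k : ℝ) ^ (1 / 16 : ℝ)) ^ 2 * z) := by ring
        _ = 256 := by rw [e3, mul_one]
    have h7 : Real.log k ^ α * (p * (1 - p) / M) ≤ 2048 * r * m := by
      have e1 := Real.rpow_le_rpow_of_exponent_le hlogK hα2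
      rw [Real.rpow_two] at e1
      have e2 := log_sq_le (x := K) (by linarith) (by linarith)
      have e3 : p * (1 - p) * K = 4 := by rw [hK]; exact mul_div_cancel₀ _ hs0.ne'
      have e4 : Real.log k ^ α * (p * (1 - p) / M)
          = p * (1 - p) * Real.log K ^ α * (128 * r * m) := by
        rw [hM, Real.div_rpow (by linarith) (by linarith)]
        have : 0 < Real.log K ^ α := by positivity
        field_simp
      rw [e4]
      have e5 : p * (1 - p) * Real.log K ^ α ≤ 16 := by nlinarith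
      calc _ ≤ 16 * (128 * (r : ℝ) * m) := mul_le_mul_of_nonneg_right e5 (by positivity)
        _ = _ := by ring
    calc Real.log k ^ α * (prob P p * (1 - prob P p))
        ≤ Real.log k ^ α * (4 * r * z * (p * (1 - p) * infl P p)
          + p * (1 - p) * infl P p / M) := mul_le_mul_of_nonneg_left h5 hΛ.le
      _ = (4 * r * (p * (1 - p)) * (Real.log k ^ α * z)
          + Real.log k ^ α * (p * (1 - p) / M)) * infl P p := by ring
      _ ≤ (4 * r * (1 / 4) * 256 + 2048 * r * m) * infl P p := by gcongr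
      _ ≤ _ := by
          apply mul_le_mul_of_nonneg_right _ hI0
          nlinarith
  · have h2 := hsplit (fun S => (1 - δ) ^ S.card) (fun _ => Real.exp (-(δ * M)))
      (fun S => pow_le_one₀ (by linarith) (by linarith)) (fun _ => (Real.exp_pos _).le)
      (fun S hS => by
        have e1 : 1 - δ ≤ Real.exp (-δ) := by linarith [Real.add_one_le_exp (-δ)]
        calc (1 - δ) ^ S.card ≤ Real.exp (-δ) ^ S.card := pow_le_pow_left₀ (by linarith) e1 _
          _ = Real.exp (S.card * -δ) := (Real.exp_nat_mul _ _).symm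
          _ ≤ _ := Real.exp_le_exp.2 (by nlinarith))
    rw [← Finset.mul_sum, sum_sq h0 h1] at h2
    have h3 := split_empty (fun S => (1 - δ) ^ S.card * fc p (indS P) S ^ 2)
    rw [← both_eq h0 h1, hemp] at h3
    simp only [card_empty, pow_zero, one_mul] at h3
    have h4 : Real.exp (-(δ * M)) * prob P p ≤ Real.exp (-(δ * M)) :=
      mul_le_of_le_one_right (Real.exp_pos _).le (prob_le_one h0 h1 P)
    have h5 : 4 * r * z * (p * (1 - p) * infl P p) ≤ 4 * r * z * (1 / 4 * infl P p) := by gcongr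
    linarith

theorem width_of_infl {B : ℝ} (hB : 0 < B) (P : Set (Finset E)) (hP : IsUpperSet P)
    (hne : P.Nonempty)
    (h : ∀ p : ℝ, 0 < p → p < 1 → prob P p * (1 - prob P p) ≤ B * infl P p)
    {ε : ℝ} (h0 : 0 < ε) (h1 : ε < 1 / 2) :
    width ε (prob P) ≤ 2 * B * Real.log ((1 - ε) / ε) := by
  refine width_upper_gen hB (prob_one hP hne) (prob_continuous P) (prob_monoOn hP) ?_ h0 h1
  intro p hp0 hp1
  obtain ⟨D, hD, -, hDI⟩ := prob_deriv hP hp0 hp1
  rw [spec_infl hp0 hp1] at hDI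
  have := mul_left_cancel₀ (mul_pos hp0 (by linarith : 0 < 1 - p)).ne' hDI
  exact ⟨D, hD, this ▸ h p hp0 hp1⟩

lemma sym_of_group (G : Subgroup (Equiv.Perm V)) [MulAction G E]
    (h1 : ∀ (g : G) (e : E), s (g • e) = (s e).image (g : Equiv.Perm V))
    (h2 : ∀ (g : G) (e : E), (∀ v ∈ s e, (g : Equiv.Perm V) v = v) → g • e = e)
    (P : Set (Finset E)) (hP : ∀ g : G, ∀ A ∈ P, A.image (fun e => g • e) ∈ P)
    (Y : Finset V) (hY : ∀ σ : Equiv.Perm V, σ.IsThreeCycle → σ.support ⊆ Y → σ ∈ G)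
    (X : Finset V) (hX : X ⊆ Y) (h3 : 3 ≤ X.card) : Sym s (indS P) X := by
  intro u hu v hv
  have key : ∀ g : G, (g : Equiv.Perm V) u = v → (∀ a, a ∉ X → (g : Equiv.Perm V) a = a) →
      ∃ (σ : Equiv.Perm V) (τ : Equiv.Perm E), σ u = v ∧ (∀ a, a ∉ X → σ a = a) ∧
      (∀ e a, σ a ∈ s (τ e) ↔ a ∈ s e) ∧ (∀ e, Disjoint (s e) X → τ e = e) ∧
      ∀ x, indS P (fun e => x (τ e)) = indS P x := by
    intro g hg1 hg2
    refine ⟨g, MulAction.toPerm g, hg1, hg2, fun e a => ?_, fun e he => ?_, fun x => ?_⟩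
    · rw [MulAction.toPerm_apply, h1]
      exact Function.Injective.mem_finset_image (g : Equiv.Perm V).injective
    · exact h2 g e fun a ha => hg2 a (Finset.disjoint_left.1 he ha)
    · have e1 : (univ.filter (fun e => x (g • e) = true)).image (fun e => g • e)
          = univ.filter (fun e => x e = true) := by
        ext e
        simp only [mem_image, mem_filter, mem_univ, true_and]
        exact ⟨fun ⟨a, ha, h⟩ => h ▸ ha, fun h => ⟨g⁻¹ • e, by simpa using h, by simp⟩⟩
      have e2 : (univ.filter (fun e => x e = true)).image (fun e => g⁻¹ • e)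
          = univ.filter (fun e => x (g • e) = true) := by
        ext e
        simp only [mem_image, mem_filter, mem_univ, true_and]
        exact ⟨fun ⟨a, ha, h⟩ => by rw [← h]; simpa using ha, fun h => ⟨g • e, h, by simp⟩⟩
      have e3 : univ.filter (fun e => x (g • e) = true) ∈ P ↔
          univ.filter (fun e => x e = true) ∈ P :=
        ⟨fun h => e1 ▸ hP g _ h, fun h => e2 ▸ hP g⁻¹ _ h⟩
      change indS P (fun e => x (g • e)) = indS P x
      unfold indS
      by_cases h : univ.filter (fun e => x e = true) ∈ P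
      · rw [if_pos h, if_pos (e3.2 h)]
      · rw [if_neg h, if_neg (fun h' => h (e3.1 h'))]
  by_cases huv : u = v
  · exact key 1 (by simpa using huv) (by simp)
  · obtain ⟨w, hw, hwu⟩ : ∃ w ∈ X, w ∉ ({u, v} : Finset V) := by
      by_contra hc
      push Not at hc
      have := (Finset.card_le_card hc).trans Finset.card_le_two
      omega
    simp only [mem_insert, mem_singleton, not_or] at hwu
    have hfix : ∀ a, a ∉ X → (Equiv.swap u w * Equiv.swap u v) a = a := by
      intro a ha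
      have a1 : a ≠ u := fun h => ha (h ▸ hu)
      have a2 : a ≠ v := fun h => ha (h ▸ hv)
      have a3 : a ≠ w := fun h => ha (h ▸ hw)
      rw [Equiv.Perm.mul_apply, Equiv.swap_apply_of_ne_of_ne a1 a2,
        Equiv.swap_apply_of_ne_of_ne a1 a3]
    refine key ⟨Equiv.swap u w * Equiv.swap u v, hY _
      (Equiv.Perm.isThreeCycle_swap_mul_swap_same (Ne.symm hwu.1) huv hwu.2) fun a ha => ?_⟩ ?_ hfix
    · by_contra hc
      exact (Equiv.Perm.mem_support.1 ha) (hfix a fun h => hc (hX h))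
    · change (Equiv.swap u w * Equiv.swap u v) u = v
      rw [Equiv.Perm.mul_apply, Equiv.swap_apply_left,
        Equiv.swap_apply_of_ne_of_ne (Ne.symm huv) (Ne.symm hwu.2)]

end main

/-- families invariant under a group with many `3`-cycles -/
theorem general (r m k : ℕ) (hr : 2 ≤ r) (hm1 : 1 ≤ m) (hk : 9 ≤ k) (V E : Type) [Fintype V]
    [DecidableEq V] [Fintype E] [DecidableEq E] (G : Subgroup (Equiv.Perm V)) [MulAction G E]
    (s : E → Finset V)
    (hG : ∀ v, ∃ Y : Finset V, v ∈ Y ∧ k ≤ Y.card ∧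
      ∀ σ : Equiv.Perm V, σ.IsThreeCycle → σ.support ⊆ Y → σ ∈ G)
    (hs : ∀ e, (s e).Nonempty ∧ (s e).card ≤ r)
    (hm : ∀ T : Finset V, (univ.filter (fun e => s e = T)).card ≤ m)
    (h1 : ∀ (g : G) (e : E), s (g • e) = (s e).image (g : Equiv.Perm V))
    (h2 : ∀ (g : G) (e : E), (∀ v ∈ s e, (g : Equiv.Perm V) v = v) → g • e = e)
    (P : Set (Finset E)) (hP : ∀ g : G, ∀ A ∈ P, A.image (fun e => g • e) ∈ P) :
    (IsUpperSet P → P.Nonempty → ∀ ε : ℝ, 0 < ε → ε < 1 / 2 → width ε (prob P) ≤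
      4800 * r * m * Real.log ((1 - ε) / ε) / Real.log k ^ ((r : ℝ) / ((r : ℝ) - 1))) ∧
    ∀ p : ℝ, 0 < p → p < 1 →
      Real.log k ^ ((r : ℝ) / ((r : ℝ) - 1)) * (prob P p * (1 - prob P p))
        ≤ 2400 * r * m * infl P p ∧
      ∀ δ : ℝ, 0 ≤ δ → δ ≤ 1 → bothProb P p δ - prob P p ^ 2 ≤
        Real.exp (-(δ * ((Real.log k / Real.log (4 / (p * (1 - p)))) ^ ((r : ℝ) / ((r : ℝ) - 1))
          / (128 * r * m)))) + r * infl P p * (k : ℝ) ^ (-(1 / 8 : ℝ)) := by
  have hY : ∀ v, ∃ Y : Finset V, v ∈ Y ∧ k ≤ Y.card ∧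
      ∀ X ⊆ Y, 3 ≤ X.card → Sym s (indS P) X := fun v => by
    obtain ⟨Y, e1, e2, e3⟩ := hG v
    exact ⟨Y, e1, e2, fun X hX h3 => sym_of_group G h1 h2 P hP Y e3 X hX h3⟩
  refine ⟨fun hup hne ε e0 e1 => ?_, fun p h0 h1 => abstract hr hm1 hk hs hm P hY h0 h1⟩
  have hΛ : 0 < Real.log k ^ ((r : ℝ) / ((r : ℝ) - 1)) :=
    Real.rpow_pos_of_pos (Real.log_pos (by exact_mod_cast (by omega : 1 < k))) _
  have hr0 : (0 : ℝ) < r := by exact_mod_cast (by omega : 0 < r)
  have hm0 : (0 : ℝ) < m := by exact_mod_cast hm1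
  refine (width_of_infl (B := 2400 * r * m / Real.log k ^ ((r : ℝ) / ((r : ℝ) - 1)))
    (by positivity) P hup hne (fun p h0 h1 => ?_) e0 e1).trans (le_of_eq (by ring))
  rw [div_mul_eq_mul_div, le_div_iff₀ hΛ, mul_comm]
  exact (abstract hr hm1 hk hs hm P hY h0 h1).1

lemma eventually_range (r : ℕ) : ∃ n0 : ℕ, ∀ n ≥ n0, 1 ≤ Real.log (n : ℕ) ∧
    Real.log (n : ℕ) ^ ((r : ℝ) / ((r : ℝ) - 1)) ≤ (n : ℝ) ^ (1 / 12 : ℝ) := by
  have h1 : ∀ᶠ x : ℝ in Filter.atTop, 1 ≤ Real.log x ∧
      Real.log x ^ ((r : ℝ) / ((r : ℝ) - 1)) ≤ x ^ (1 / 12 : ℝ) := by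
    filter_upwards [(isLittleO_log_rpow_rpow_atTop ((r : ℝ) / ((r : ℝ) - 1))
      (by norm_num : (0 : ℝ) < 1 / 12)).bound one_pos, Filter.eventually_ge_atTop 0,
      Real.tendsto_log_atTop.eventually_ge_atTop 1] with x hx hx0 hx1
    rw [one_mul, Real.norm_of_nonneg (Real.rpow_nonneg hx0 _)] at hx
    exact ⟨hx1, (le_abs_self _).trans hx⟩
  exact (tendsto_natCast_atTop_atTop.eventually h1).exists_forall_of_atTop

/-- random `r`-ary relations: the exact order of the largest width -/
theorem relations (r : ℕ) (hr : 2 ≤ r) (ε : ℝ) (e0 : 0 < ε) (e1 : ε < 1 / 2) :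
    ∃ c C : ℝ, 0 < c ∧ ∃ n0 : ℕ, ∀ n ≥ n0,
      (∀ P : Set (Finset (Fin r → Fin n)),
        (∀ σ : Equiv.Perm (Fin n), ∀ A ∈ P, A.image (fun e => σ ∘ e) ∈ P) →
        IsUpperSet P → P.Nonempty →
        width ε (prob P) ≤ C / Real.log n ^ ((r : ℝ) / ((r : ℝ) - 1))) ∧
      ∃ P : Set (Finset (Fin r → Fin n)),
        (∀ σ : Equiv.Perm (Fin n), ∀ A ∈ P, A.image (fun e => σ ∘ e) ∈ P) ∧
        IsUpperSet P ∧ P.Nonempty ∧ P ≠ Set.univ ∧
        c / Real.log n ^ ((r : ℝ) / ((r : ℝ) - 1)) ≤ width ε (prob P) := by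
  obtain ⟨c, hc, n1, hlow⟩ := mlower hr e0 e1
  obtain ⟨n2, hn2⟩ := eventually_range r
  have hr2 : (2 : ℝ) ≤ r := by exact_mod_cast hr
  refine ⟨c, 4800 * r * (r ^ r : ℕ) * Real.log ((1 - ε) / ε), hc, max (max n1 n2) 9,
    fun n hn => ⟨fun P hP hup hne => ?_, ?_⟩⟩
  · have hn9 : 9 ≤ n := le_trans (le_max_right _ _) hn
    refine (general r (r ^ r) n hr (Nat.one_le_pow _ _ (by omega)) hn9 (Fin n) (Fin r → Fin n)
      ⊤ (fun e => univ.image e) (fun v => ⟨univ, mem_univ _, by simp, fun _ _ _ => trivial⟩)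
      (fun e => ⟨⟨e ⟨0, by omega⟩, by simp⟩, Finset.card_image_le.trans (by simp)⟩)
      (fun T => ?_) (fun g e => ?_) (fun g e h => ?_) P (fun g => hP g)).1 hup hne ε e0 e1
    · rcases (univ.filter (fun e : Fin r → Fin n => univ.image e = T)).eq_empty_or_nonempty
        with h | ⟨e0, he0⟩
      · rw [h]; simp
      · have hT : T.card ≤ r := by
          rw [← (mem_filter.1 he0).2]
          exact Finset.card_image_le.trans (by simp)
        calc _ ≤ (Fintype.piFinset (fun _ : Fin r => T)).card := by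
              refine Finset.card_le_card fun e he => Fintype.mem_piFinset.2 fun i => ?_
              rw [← (mem_filter.1 he).2]
              exact mem_image_of_mem _ (mem_univ i)
          _ = T.card ^ r := by simp
          _ ≤ r ^ r := Nat.pow_le_pow_left hT r
    · rw [Finset.image_image]
      rfl
    · funext i
      exact h (e i) (mem_image_of_mem _ (mem_univ i))
  · have hn1 : n1 ≤ n := le_trans (le_trans (le_max_left _ _) (le_max_left _ _)) hn
    obtain ⟨hl1, hl2⟩ := hn2 n (le_trans (le_trans (le_max_right _ _) (le_max_left _ _)) hn)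
    have hl0 : 0 ≤ Real.log n := by linarith
    have hprod : ∀ t : ℝ, (∏ _j : Fin r, Real.log n) ^ t = Real.log n ^ (r * t) := by
      intro t
      rw [Finset.prod_const, card_univ, Fintype.card_fin, ← Real.rpow_natCast,
        ← Real.rpow_mul hl0]
    obtain ⟨P, h1, h2, h3, h4, h5⟩ := hlow (fun _ => n) (fun i => ⟨hn1, by
      rw [hprod, mul_one_div]
      have := Real.rpow_le_rpow_of_exponent_le hl1
        (show (1 : ℝ) ≤ (r : ℝ) / ((r : ℝ) - 1) by rw [le_div_iff₀ (by linarith)]; linarith)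
      rwa [Real.rpow_one] at this, by rw [hprod, mul_one_div]; exact hl2⟩)
    refine ⟨P, fun σ A hA => ?_, h2, h3, h4, ?_⟩
    · have := h1 (fun _ => σ) A hA
      rw [Finset.map_eq_image] at this
      convert this using 2
      rfl
    · rw [hprod, mul_neg, mul_one_div, Real.rpow_neg hl0] at h5
      rw [div_eq_mul_inv]
      exact h5

end Vale.Agent.N063
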